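import Vale.Agent.P116.PBC.GB
import Vale.Agent.P116.PBC.N

/-!
P116, block [7], geometric half: finitely many disjoint full continua inside a connected open set
lie in one full continuum inside this open set; and the part of `K` inside a connected open set
(when compact) is covered by one piece inside this open set.
-/

open Set Filter Topology Metric Bornology

namespace Vale.Agent.P116.KB.H273

open H906 PBC

/-- full continua -/
structure FC (P : Set ℂ) : Prop where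
  cpt : IsCompact P
  conn : IsConnected P
  full : Full P

/-- the union of two compact full sets with connected intersection is full -/
lemma full_union' {A B : Set ℂ} (hA : IsCompact A) (hB : IsCompact B) (hAf : Full A)
    (hBf : Full B) (hd : IsPreconnected (A ∩ B)) : Full (A ∪ B) := by
  intro z hz
  obtain ⟨R, hR⟩ := (hA.union hB).isBounded.subset_closedBall (0 : ℂ)
  obtain ⟨w, hw, -⟩ := inter_compl_ball_nonempty
    (not_isBounded_compl_closedBall (0 : ℂ) (max R 0)) 0 0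
  have hAB : A ∪ B ⊆ closedBall (0 : ℂ) (max R 0) :=
    hR.trans (closedBall_subset_closedBall (le_max_left _ _))
  have hwAB : w ∉ A ∪ B := fun h => hw (hAB h)
  have join : ∀ {C : Set ℂ}, IsCompact C → Full C → z ∉ C → w ∉ C → JoinedIn Cᶜ z w := by
    intro C hC hCf hzC hwC
    have h1 : IsPathConnected Cᶜ := by
      rw [← (hC.isClosed.isOpen_compl).isConnected_iff_isPathConnected]
      exact ⟨⟨z, hzC⟩, hCf.isPreconnected_compl hC.isBounded⟩
    exact h1.joinedIn z hzC w hwC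
  have h1 : JoinedIn (A ∪ B)ᶜ z w := P153.TOP.janiszewski hA hB hd
    (join hA hAf (fun h => hz (Or.inl h)) (fun h => hwAB (Or.inl h)))
    (join hB hBf (fun h => hz (Or.inr h)) (fun h => hwAB (Or.inr h)))
  obtain ⟨γ, hγ⟩ := h1
  refine ⟨range γ ∪ (closedBall (0 : ℂ) (max R 0))ᶜ, ?_, Or.inl ⟨0, γ.source⟩, ?_, ?_⟩
  · exact IsPreconnected.union w ⟨1, γ.target⟩ hw (isPreconnected_range γ.continuous)
      (isPreconnected_compl_closedBall 0 (le_max_right _ _))
  · refine Disjoint.union_left ?_ (disjoint_compl_left.mono_right hAB)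
    rw [disjoint_left]
    rintro _ ⟨t, rfl⟩ h
    exact hγ t h
  · exact fun h => not_isBounded_compl_closedBall (0 : ℂ) (max R 0) (h.subset subset_union_right)

/-- convex sets are full -/
lemma full_of_convex {C : Set ℂ} (hC : Convex ℝ C) : Full C := by
  intro z hz
  rcases C.eq_empty_or_nonempty with rfl | ⟨c, hc⟩
  · exact ⟨univ, isPreconnected_univ, mem_univ _, disjoint_empty _, NormedSpace.unbounded_univ ℝ ℂ⟩
  have hzc : z - c ≠ 0 := fun h => hz (by rw [sub_eq_zero.1 h]; exact hc)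
  refine ⟨(fun t : ℝ => z + t • (z - c)) '' Ici 0, ?_, ⟨0, mem_Ici.2 le_rfl, by simp⟩, ?_, ?_⟩
  · exact (convex_Ici (0:ℝ)).isPreconnected.image _ (by fun_prop)
  · rw [disjoint_left]
    rintro _ ⟨t, ht, rfl⟩ hmem
    have ht' : (0:ℝ) ≤ t := ht
    have h1 : (0:ℝ) < 1 + t := by linarith
    apply hz
    have h2 := hC hmem hc (a := 1 / (1 + t)) (b := t / (1 + t)) (by positivity) (by positivity)
      (by rw [← add_div, div_self h1.ne'])
    have h3 : (1 / (1 + t)) • (z + t • (z - c)) + (t / (1 + t)) • c = z := by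
      have h4 : ((1:ℂ) + t) ≠ 0 := by exact_mod_cast h1.ne'
      simp only [Complex.real_smul]
      push_cast
      field_simp
      ring
    simpa only [h3] using h2
  · intro hb
    obtain ⟨M, hM⟩ := hb.subset_closedBall 0
    have hn : 0 < ‖z - c‖ := norm_pos_iff.2 hzc
    set t : ℝ := (|M| + ‖z‖ + 1) / ‖z - c‖ with ht
    have ht0 : 0 ≤ t := by positivity
    have h1 := hM ⟨t, ht0, rfl⟩
    rw [mem_closedBall, dist_zero_right] at h1
    have h2 : ‖t • (z - c)‖ = |M| + ‖z‖ + 1 := by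
      rw [norm_smul, Real.norm_of_nonneg ht0, ht, div_mul_cancel₀ _ hn.ne']
    have h3 : ‖t • (z - c)‖ ≤ ‖z + t • (z - c)‖ + ‖z‖ := by
      have := norm_sub_le (z + t • (z - c)) z
      rwa [add_sub_cancel_left] at this
    have h4 := le_abs_self M
    simp only at h1
    linarith

lemma FC.segment (a b : ℂ) : FC (segment ℝ a b) where
  cpt := by
    rw [segment_eq_image_lineMap]
    exact isCompact_Icc.image (by fun_prop)
  conn := ⟨⟨a, left_mem_segment ℝ a b⟩, (convex_segment a b).isPreconnected⟩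
  full := full_of_convex (convex_segment a b)

/-- full continua with exactly one common point -/
lemma FC.union {A B : Set ℂ} (hA : FC A) (hB : FC B) {a : ℂ} (h : A ∩ B = {a}) : FC (A ∪ B) where
  cpt := hA.cpt.union hB.cpt
  conn := by
    have ha : a ∈ A ∩ B := h ▸ mem_singleton a
    exact IsConnected.union ⟨a, ha⟩ hA.conn hB.conn
  full := full_union' hA.cpt hB.cpt hA.full hB.full (by rw [h]; exact isPreconnected_singleton)

/-- the last point of the closed set `P` on the segment from `x ∈ P` to `y` -/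
lemma exists_last {P : Set ℂ} (hP : IsClosed P) {x y : ℂ} (hx : x ∈ P) :
    ∃ a ∈ segment ℝ x y, a ∈ P ∧ P ∩ segment ℝ a y = {a} := by
  have hc : IsCompact (segment ℝ x y ∩ P) := (FC.segment x y).cpt.inter_right hP
  obtain ⟨a, ⟨ha1, ha2⟩, hmin⟩ := hc.exists_isMinOn ⟨x, left_mem_segment ℝ x y, hx⟩
    (continuous_dist.comp (Continuous.prodMk continuous_id (continuous_const (y := y)))).continuousOn
  refine ⟨a, ha1, ha2, ?_⟩
  apply Subset.antisymm
  · rintro b ⟨hb1, hb2⟩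
    have h1 : b ∈ segment ℝ x y :=
      (convex_segment x y).segment_subset ha1 (right_mem_segment ℝ x y) hb2
    have h2 : dist a y ≤ dist b y := hmin ⟨h1, hb1⟩
    have h3 : dist a b + dist b y = dist a y := dist_add_dist_of_mem_segment hb2
    have h4 : dist a b ≤ 0 := by linarith
    rw [mem_singleton_iff]
    exact (dist_le_zero.1 h4).symm
  · rintro b rfl
    exact ⟨ha2, left_mem_segment ℝ b y⟩

/-- partially constructed tree -/
structure St (O : Set ℂ) (𝒬 : Set (Set ℂ)) (P : Set ℂ) (𝒜 : Set (Set ℂ)) : Prop where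
  fc : FC P
  sub : P ⊆ O
  sub' : 𝒜 ⊆ 𝒬
  inn : ∀ Q ∈ 𝒜, Q ⊆ P
  out : ∀ Q ∈ 𝒬, Q ∉ 𝒜 → Disjoint P Q

/-- the data: finitely many pairwise disjoint full continua in `O` -/
structure Fam (O : Set ℂ) (𝒬 : Set (Set ℂ)) : Prop where
  fin : 𝒬.Finite
  fc : ∀ Q ∈ 𝒬, FC Q
  sub : ∀ Q ∈ 𝒬, Q ⊆ O
  disj : ∀ Q ∈ 𝒬, ∀ Q' ∈ 𝒬, Q ≠ Q' → Disjoint Q Q'

variable {O : Set ℂ} {𝒬 : Set (Set ℂ)}

lemma St.step {P : Set ℂ} {𝒜 : Set (Set ℂ)} (h𝒬 : Fam O 𝒬) (h : St O 𝒬 P 𝒜) {x y : ℂ}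
    (hx : x ∈ P) (hxy : segment ℝ x y ⊆ O) :
    (∃ P' 𝒜', St O 𝒬 P' 𝒜' ∧ 𝒜 ⊂ 𝒜') ∨ ∃ P', St O 𝒬 P' 𝒜 ∧ y ∈ P' := by
  set B : Set ℂ := ⋃₀ (𝒬 \ 𝒜) with hB
  have hBc : IsCompact B := (h𝒬.fin.subset sdiff_subset).isCompact_sUnion
    fun Q hQ => (h𝒬.fc Q hQ.1).cpt
  by_cases hne : (B ∩ segment ℝ x y).Nonempty
  · left
    obtain ⟨b0, hb0, hb0s⟩ := hne
    obtain ⟨b, hb1, hb2, hb3⟩ := exists_last hBc.isClosed (x := b0) (y := x) hb0
    have hbs : b ∈ segment ℝ x y :=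
      (convex_segment x y).segment_subset hb0s (left_mem_segment ℝ x y) hb1
    obtain ⟨a, ha1, ha2, ha3⟩ := exists_last h.fc.cpt.isClosed (x := x) (y := b) hx
    have hab : segment ℝ a b ⊆ segment ℝ x b :=
      (convex_segment x b).segment_subset ha1 (right_mem_segment ℝ x b)
    have hxb : segment ℝ x b ⊆ segment ℝ x y :=
      (convex_segment x y).segment_subset (left_mem_segment ℝ x y) hbs
    obtain ⟨Q, ⟨hQ1, hQ2⟩, hbQ⟩ := hb2
    have hBs : ∀ z ∈ segment ℝ a b, z ∈ B → z = b := by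
      intro z hz hzB
      have h1 : z ∈ B ∩ segment ℝ b x := ⟨hzB, by rw [segment_symm]; exact hab hz⟩
      rw [hb3] at h1
      exact h1
    have h1 : FC (P ∪ segment ℝ a b) := h.fc.union (FC.segment a b) ha3
    have h2 : (P ∪ segment ℝ a b) ∩ Q = {b} := by
      apply Subset.antisymm
      · rintro z ⟨hz | hz, hzQ⟩
        · exact absurd hzQ (disjoint_left.1 (h.out Q hQ1 hQ2) hz)
        · exact hBs z hz ⟨Q, ⟨hQ1, hQ2⟩, hzQ⟩
      · rintro z rfl
        exact ⟨Or.inr (right_mem_segment ℝ a z), hbQ⟩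
    refine ⟨(P ∪ segment ℝ a b) ∪ Q, insert Q 𝒜, ⟨h1.union (h𝒬.fc Q hQ1) h2, ?_, ?_, ?_, ?_⟩, ?_⟩
    · exact union_subset (union_subset h.sub (hab.trans (hxb.trans hxy))) (h𝒬.sub Q hQ1)
    · exact insert_subset hQ1 h.sub'
    · rintro Q' (rfl | hQ')
      · exact subset_union_right
      · exact (h.inn Q' hQ').trans (subset_union_left.trans subset_union_left)
    · intro Q' hQ' hne
      rw [mem_insert_iff, not_or] at hne
      rw [disjoint_left]
      rintro z ((hz | hz) | hz) hzQ'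
      · exact disjoint_left.1 (h.out Q' hQ' hne.2) hz hzQ'
      · have h3 := hBs z hz ⟨Q', ⟨hQ', hne.2⟩, hzQ'⟩
        rw [h3] at hzQ'
        exact disjoint_left.1 (h𝒬.disj Q' hQ' Q hQ1 hne.1) hzQ' hbQ
      · exact disjoint_left.1 (h𝒬.disj Q' hQ' Q hQ1 hne.1) hzQ' hz
    · exact ssubset_insert hQ2
  · right
    rw [not_nonempty_iff_eq_empty] at hne
    obtain ⟨a, ha1, ha2, ha3⟩ := exists_last h.fc.cpt.isClosed (x := x) (y := y) hx
    have hay : segment ℝ a y ⊆ segment ℝ x y :=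
      (convex_segment x y).segment_subset ha1 (right_mem_segment ℝ x y)
    refine ⟨P ∪ segment ℝ a y, ⟨h.fc.union (FC.segment a y) ha3, ?_, h.sub', ?_, ?_⟩,
      Or.inr (right_mem_segment ℝ a y)⟩
    · exact union_subset h.sub (hay.trans hxy)
    · exact fun Q hQ => (h.inn Q hQ).trans subset_union_left
    · intro Q hQ hQA
      rw [disjoint_left]
      rintro z (hz | hz) hzQ
      · exact disjoint_left.1 (h.out Q hQ hQA) hz hzQ
      · have h3 : z ∈ B ∩ segment ℝ x y := ⟨⟨Q, ⟨hQ, hQA⟩, hzQ⟩, hay hz⟩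
        rw [hne] at h3
        exact h3

lemma St.exists_bigger (hO : IsOpen O) (hc : IsPreconnected O) {P : Set ℂ} {𝒜 : Set (Set ℂ)}
    (h𝒬 : Fam O 𝒬) (h : St O 𝒬 P 𝒜) (hne : ∃ Q ∈ 𝒬, Q ∉ 𝒜) :
    ∃ P' 𝒜', St O 𝒬 P' 𝒜' ∧ 𝒜 ⊂ 𝒜' := by
  by_contra hno
  set S : Set ℂ := {p | p ∈ O ∧ ∃ P', St O 𝒬 P' 𝒜 ∧ p ∈ P'} with hS
  have key : ∀ p ∈ O, ∃ r > 0, ∀ p' ∈ ball p r, p' ∈ O ∧ (p' ∈ S ↔ p ∈ S) := by
    intro p hp
    obtain ⟨r, hr, hb⟩ := Metric.isOpen_iff.1 hO p hp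
    refine ⟨r, hr, fun p' hp' => ⟨hb hp', ?_⟩⟩
    have hs : segment ℝ p p' ⊆ O :=
      ((convex_ball p r).segment_subset (mem_ball_self hr) hp').trans hb
    constructor
    · rintro ⟨-, P', hP', hpP'⟩
      refine ⟨hp, (hP'.step h𝒬 hpP' (y := p) (by rwa [segment_symm])).resolve_left hno⟩
    · rintro ⟨-, P', hP', hpP'⟩
      exact ⟨hb hp', (hP'.step h𝒬 hpP' hs).resolve_left hno⟩
  have hSo : IsOpen S := by
    rw [Metric.isOpen_iff]
    intro p hp
    obtain ⟨r, hr, h1⟩ := key p hp.1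
    exact ⟨r, hr, fun p' hp' => (h1 p' hp').2.2 hp⟩
  have hVo : IsOpen (O \ S) := by
    rw [Metric.isOpen_iff]
    intro p hp
    obtain ⟨r, hr, h1⟩ := key p hp.1
    exact ⟨r, hr, fun p' hp' => ⟨(h1 p' hp').1, fun h2 => hp.2 ((h1 p' hp').2.1 h2)⟩⟩
  have hcov : O ⊆ S ∪ (O \ S) := fun p hp => by
    by_cases h1 : p ∈ S
    · exact Or.inl h1
    · exact Or.inr ⟨hp, h1⟩
  obtain ⟨p, hp⟩ := h.fc.conn.nonempty
  have hOS : O ⊆ S := hc.subset_left_of_subset_union hSo hVo disjoint_sdiff_right hcov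
    ⟨p, h.sub hp, h.sub hp, P, h, hp⟩
  obtain ⟨Q, hQ, hQA⟩ := hne
  obtain ⟨q, hq⟩ := (h𝒬.fc Q hQ).conn.nonempty
  obtain ⟨-, P', hP', hqP'⟩ := hOS (h𝒬.sub Q hQ hq)
  exact disjoint_left.1 (hP'.out Q hQ hQA) hqP' hq

/-- **finitely many pairwise disjoint full continua in the connected open set `O` are contained in
one full continuum in `O`** -/
theorem exists_tree (hO : IsOpen O) (hc : IsPreconnected O) (h𝒬 : Fam O 𝒬) (hne : 𝒬.Nonempty) :
    ∃ P, FC P ∧ P ⊆ O ∧ ⋃₀ 𝒬 ⊆ P := by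
  have main : ∀ (n : ℕ) (P : Set ℂ) (𝒜 : Set (Set ℂ)), (𝒬 \ 𝒜).ncard = n → St O 𝒬 P 𝒜 →
      ∃ P', St O 𝒬 P' 𝒬 := by
    intro n
    induction n using Nat.strong_induction_on with
    | _ n ih =>
      intro P 𝒜 hn h
      by_cases h1 : ∃ Q ∈ 𝒬, Q ∉ 𝒜
      · obtain ⟨P', 𝒜', h2, h3⟩ := h.exists_bigger hO hc h𝒬 h1
        refine ih _ ?_ P' 𝒜' rfl h2
        rw [← hn]
        refine ncard_lt_ncard ?_ (h𝒬.fin.subset sdiff_subset)
        have h4 := h3.1
        obtain ⟨Q, hQ, hQA⟩ := (ssubset_iff_of_subset h3.1).1 h3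
        refine (ssubset_iff_of_subset (sdiff_subset_sdiff_right h4)).2 ⟨Q, ⟨h2.sub' hQ, hQA⟩, ?_⟩
        exact fun h5 => h5.2 hQ
      · push Not at h1
        have h2 : 𝒜 = 𝒬 := Subset.antisymm h.sub' h1
        rw [h2] at h
        exact ⟨P, h⟩
  obtain ⟨Q, hQ⟩ := hne
  have h0 : St O 𝒬 Q {Q} := by
    refine ⟨h𝒬.fc Q hQ, h𝒬.sub Q hQ, singleton_subset_iff.2 hQ, ?_, ?_⟩
    · rintro Q' rfl
      exact subset_rfl
    · exact fun Q' hQ' hne => h𝒬.disj Q hQ Q' hQ' (fun h => hne h.symm)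
  obtain ⟨P, hP⟩ := main _ Q {Q} rfl h0
  exact ⟨P, hP.fc, hP.sub, sUnion_subset hP.inn⟩

variable {K : Set ℂ}

/-- if `K ∩ O` is compact, fine nodes of points of `K ∩ O` are inside `O` -/
lemma exists_level (hK : IsCompact K) (hf : Full K) (hO : IsOpen O) (hKO : IsCompact (K ∩ O)) :
    ∃ l, ∀ m ≥ l, ∀ x ∈ K ∩ O, nd K m x ⊆ O := by
  have hcomp : ∀ x ∈ K ∩ O, connectedComponentIn K x ⊆ O := by
    intro x hx
    have hcov : connectedComponentIn K x ⊆ O ∪ (K ∩ O)ᶜ := by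
      intro y hy
      by_cases h : y ∈ O
      · exact Or.inl h
      · exact Or.inr fun h1 => h h1.2
    have hKc := connectedComponentIn_subset K x
    rcases isPreconnected_iff_subset_of_disjoint.1 (isPreconnected_connectedComponentIn
      (F := K) (x := x)) O (K ∩ O)ᶜ hO hKO.isClosed.isOpen_compl hcov (by
        rw [eq_empty_iff_forall_notMem]
        rintro y ⟨hy, hyO, hyc⟩
        exact hyc ⟨hKc hy, hyO⟩) with h | h
    · exact h
    · exact absurd hx (h (mem_connectedComponentIn hx.1))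
  refine hKO.induction_on (p := fun A => ∃ l, ∀ m ≥ l, ∀ x ∈ A, nd K m x ⊆ O)
    ⟨0, by simp⟩ ?_ ?_ ?_
  · rintro A B hAB ⟨n, hn⟩
    exact ⟨n, fun m hm y hy => hn m hm y (hAB hy)⟩
  · rintro A B ⟨n, hn⟩ ⟨n', hn'⟩
    refine ⟨max n n', ?_⟩
    rintro m hm y (hy | hy)
    · exact hn m ((le_max_left _ _).trans hm) y hy
    · exact hn' m ((le_max_right _ _).trans hm) y hy
  · intro x hx
    obtain ⟨n, hn⟩ := exists_nd_subset hK hf hx.1 hO (hcomp x hx)
    refine ⟨ball x (lr n) ∩ (K ∩ O), ?_, n, ?_⟩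
    · exact inter_mem (mem_nhdsWithin_of_mem_nhds (ball_mem_nhds x (lr_pos n)))
        self_mem_nhdsWithin
    · rintro m hm y ⟨hy1, hy2⟩
      have h1 : y ∈ nd K n x := closedBall_subset_nd hx.1 (mem_nd hx.1 n)
        (ball_subset_closedBall hy1)
      exact (nd_anti hm).trans ((nd_eq h1).subset.trans hn)

/-- general pieces -/
structure GP (K P : Set ℂ) : Prop where
  cpt : IsCompact P
  conn : IsConnected P
  full : Full P
  nontriv : P.Nontrivial
  fr : Disjoint (frontier P) K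

/-- **one piece inside `O` covering `K ∩ O`** -/
theorem exists_piece (hK : IsCompact K) (hf : Full K) (hO : IsOpen O) (hc : IsPreconnected O)
    (hKO : IsCompact (K ∩ O)) (hne : (K ∩ O).Nonempty) :
    ∃ P, GP K P ∧ P ⊆ O ∧ K ∩ O ⊆ interior P := by
  obtain ⟨l, hl⟩ := exists_level hK hf hO hKO
  have hl := hl l le_rfl
  have h𝒬 : Fam O (nd K l '' (K ∩ O)) := by
    refine ⟨(finite_nodes hK l).subset (image_mono inter_subset_left), ?_, ?_, ?_⟩
    · rintro _ ⟨x, hx, rfl⟩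
      exact ⟨isCompact_nd hK l x, ⟨⟨x, mem_nd hx.1 l⟩, isPreconnected_nd l x⟩, full_nd hK l x⟩
    · rintro _ ⟨x, hx, rfl⟩
      exact hl x hx
    · rintro _ ⟨x, hx, rfl⟩ _ ⟨y, hy, rfl⟩ hxy
      rw [disjoint_left]
      intro z hzx hzy
      exact hxy ((nd_eq hzx).symm.trans (nd_eq hzy))
  obtain ⟨P, hP1, hP2, hP3⟩ := exists_tree hO hc h𝒬 (hne.image _)
  have hint : K ∩ O ⊆ interior P := by
    intro x hx
    rw [mem_interior]
    refine ⟨ball x (lr l), ?_, isOpen_ball, mem_ball_self (lr_pos l)⟩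
    have hmem : nd K l x ∈ nd K l '' (K ∩ O) := mem_image_of_mem _ hx
    exact ball_subset_closedBall.trans ((closedBall_subset_nd hx.1 (mem_nd hx.1 l)).trans
      ((subset_sUnion_of_mem hmem).trans hP3))
  obtain ⟨x, hx⟩ := hne
  have hmem : nd K l x ∈ nd K l '' (K ∩ O) := mem_image_of_mem _ hx
  refine ⟨P, ⟨hP1.cpt, hP1.conn, hP1.full, ?_, ?_⟩, hP2, hint⟩
  · exact (nontrivial_nd hx.1).mono ((subset_sUnion_of_mem hmem).trans hP3)
  · rw [disjoint_left]
    intro y hy hyK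
    have hyP : y ∈ P := hP1.cpt.isClosed.frontier_subset hy
    exact hy.2 (hint ⟨hyK, hP2 hyP⟩)

/-- **pieces inside finitely many pairwise disjoint connected open sets which cover `K ∩ w`** -/
theorem exists_pieces (hK : IsCompact K) (hf : Full K) {w : Set ℂ} (hw : IsClosed w)
    {ι : Type*} [Finite ι] {O : ι → Set ℂ} (hO : ∀ i, IsOpen (O i))
    (hc : ∀ i, IsPreconnected (O i)) (hd : Pairwise fun i j => Disjoint (O i) (O j))
    (hsub : ∀ i, O i ⊆ w) (hcov : K ∩ w ⊆ ⋃ i, O i) :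
    ∃ P : ι → Set ℂ, ∀ i, (K ∩ O i).Nonempty →
      GP K (P i) ∧ P i ⊆ O i ∧ K ∩ O i ⊆ interior (P i) := by
  have h1 : ∀ i, ∃ P, (K ∩ O i).Nonempty → GP K P ∧ P ⊆ O i ∧ K ∩ O i ⊆ interior P := by
    intro i
    by_cases hne : (K ∩ O i).Nonempty
    · have hKO : IsCompact (K ∩ O i) := by
        have h2 : K ∩ O i = (K ∩ w) \ ⋃ j ∈ {j | j ≠ i}, O j := by
          ext x
          constructor
          · rintro ⟨hx, hxi⟩
            refine ⟨⟨hx, hsub i hxi⟩, fun h => ?_⟩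
            obtain ⟨j, hj, hxj⟩ := mem_iUnion₂.1 h
            exact disjoint_left.1 (hd hj) hxj hxi
          · rintro ⟨hx, hxn⟩
            obtain ⟨j, hxj⟩ := mem_iUnion.1 (hcov hx)
            by_cases hji : j = i
            · exact ⟨hx.1, hji ▸ hxj⟩
            · exact absurd (mem_iUnion₂.2 ⟨j, hji, hxj⟩) hxn
        rw [h2]
        exact (hK.inter_right hw).diff (isOpen_biUnion fun j _ => hO j)
      obtain ⟨P, hP⟩ := exists_piece hK hf (hO i) (hc i) hKO hne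
      exact ⟨P, fun _ => hP⟩
    · exact ⟨∅, fun h => absurd h hne⟩
  choose P hP using h1
  exact ⟨P, hP⟩

end Vale.Agent.P116.KB.H273
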